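import Vale.Agent.P280.H83.Api2

/-! P280, plan N: API of the definitions, part 3 (fields which are independent at a fixed point). -/

open DirectSum Vale.Agent.P280.T Vale.Agent.P280.H127

set_option linter.all false
set_option linter.unusedSectionVars false

namespace Vale.Agent.P280.N

open Matrix

/-! ### matrices with regular entries -/

section mat
variable {R : Type} [CommRing R] [IsDomain R] [Algebra ℂ R] {q : R →ₐ[ℂ] ℂ}
variable {ι : Type} [Fintype ι] [DecidableEq ι]

theorem Val.intCast (n : ℤ) : Val q (n : FractionRing R) (n : ℂ) := by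
  have h := Val.algebraMap (q := q) (n : ℂ)
  rwa [map_intCast] at h

theorem Val.prod {κ : Type*} (s : Finset κ) {f : κ → FractionRing R} {c : κ → ℂ}
    (h : ∀ i ∈ s, Val q (f i) (c i)) : Val q (∏ i ∈ s, f i) (∏ i ∈ s, c i) := by
  classical
  induction s using Finset.induction_on with
  | empty => rw [Finset.prod_empty, Finset.prod_empty]; exact Val.one
  | insert a s ha ih =>
    rw [Finset.prod_insert ha, Finset.prod_insert ha]
    exact (h a (Finset.mem_insert_self _ _)).mul
      (ih fun i hi => h i (Finset.mem_insert_of_mem hi))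

theorem Val.det {A : Matrix ι ι (FractionRing R)} {A0 : Matrix ι ι ℂ}
    (h : ∀ i j, Val q (A i j) (A0 i j)) : Val q A.det A0.det := by
  rw [Matrix.det_apply', Matrix.det_apply']
  exact Val.sum _ fun σ _ => (Val.intCast _).mul (Val.prod _ fun i _ => h _ _)

/-- Cramer's rule -/
theorem det_mul_eq {K : Type*} [Field K] {A : Matrix ι ι K} {g ρ : ι → K} (h : A *ᵥ g = ρ)
    (i : ι) : A.det * g i = (A.updateCol i ρ).det := by
  rw [← Matrix.cramer_apply, Matrix.cramer_eq_adjugate_mulVec, ← h, Matrix.mulVec_mulVec,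
    Matrix.adjugate_mul, Matrix.smul_mulVec, Matrix.one_mulVec]
  rfl

theorem solve_rg {A : Matrix ι ι (FractionRing R)} {A0 : Matrix ι ι ℂ}
    (h : ∀ i j, Val q (A i j) (A0 i j)) (h0 : A0.det ≠ 0) {g ρ : ι → FractionRing R}
    (hρ : ∀ i, Rg q (ρ i)) (e : A *ᵥ g = ρ) (i : ι) : Rg q (g i) := by
  have h1 := det_mul_eq e i
  choose ρ0 hρ0 using fun i => (hρ i).val
  have h2 : Val q (A.updateCol i ρ).det (A0.updateCol i ρ0).det := by
    refine Val.det fun k l => ?_
    by_cases hl : l = i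
    · subst hl
      rw [Matrix.updateCol_self, Matrix.updateCol_self]
      exact hρ0 k
    · rw [Matrix.updateCol_ne hl, Matrix.updateCol_ne hl]
      exact h k l
  rw [← h1] at h2
  exact (Rg.mul_iff (Val.det h) h0).1 h2.rg

theorem HK.det {r : ℕ} {𝒜 : ℕ × (Fin r → ℤ) → Submodule ℂ R} [GradedAlgebra 𝒜]
    {A : Matrix ι ι (FractionRing R)} {d : ι → ℕ} {a b : ι → Fin r → ℤ}
    (h : ∀ i j, HK 𝒜 (d i) (a i - b j) (A i j)) :
    HK 𝒜 (∑ i, (d i : ℤ)) (∑ i, a i - ∑ i, b i) A.det := by
  rw [Matrix.det_apply']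
  refine HK.sum _ (Finset.sum_nonneg fun i _ => Int.natCast_nonneg _) fun σ _ => ?_
  have h1 : HK 𝒜 (∑ i, (d (σ i) : ℤ)) (∑ i, (a (σ i) - b i)) (∏ i, A (σ i) i) :=
    HK.prod _ fun i _ => h _ _
  have h2 : HK 𝒜 0 0 (((Equiv.Perm.sign σ : ℤ)) : FractionRing R) := by
    have h3 := HK.const (𝒜 := 𝒜) ((Equiv.Perm.sign σ : ℤ) : ℂ)
    rwa [map_intCast] at h3
  refine (h2.mul h1).cast ?_ ?_
  · rw [zero_add]
    exact Equiv.sum_comp σ fun i => (d i : ℤ)
  · rw [zero_add, Finset.sum_sub_distrib]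
    congr 1
    exact Equiv.sum_comp σ a

end mat

/-! ### brackets and spans -/

section span
variable {R : Type} [CommRing R] [IsDomain R] [Algebra ℂ R] {q : R →ₐ[ℂ] ℂ}

theorem vf_lie_zero (e : VF R) : ⁅e, (0 : VF R)⁆ = 0 := by
  refine Derivation.ext fun x => ?_
  rw [Derivation.commutator_apply, Derivation.zero_apply, Derivation.zero_apply, map_zero, sub_zero]

theorem vf_lie_add (e v w : VF R) : ⁅e, v + w⁆ = ⁅e, v⁆ + ⁅e, w⁆ := by
  refine Derivation.ext fun x => ?_
  rw [Derivation.commutator_apply, Derivation.add_apply, Derivation.add_apply,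
    Derivation.add_apply, Derivation.commutator_apply, Derivation.commutator_apply, map_add]
  ring

theorem vf_lie_sub (e v w : VF R) : ⁅e, v - w⁆ = ⁅e, v⁆ - ⁅e, w⁆ := by
  refine Derivation.ext fun x => ?_
  rw [Derivation.commutator_apply, Derivation.sub_apply, Derivation.sub_apply,
    Derivation.sub_apply, Derivation.commutator_apply, Derivation.commutator_apply, map_sub]
  ring

theorem vf_lie_neg (e v : VF R) : ⁅e, -v⁆ = -⁅e, v⁆ := by
  refine Derivation.ext fun x => ?_
  rw [Derivation.commutator_apply, Derivation.neg_apply, Derivation.neg_apply,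
    Derivation.neg_apply, Derivation.commutator_apply, map_neg]
  ring

theorem vf_skew (v w : VF R) : ⁅v, w⁆ = -⁅w, v⁆ := by
  refine Derivation.ext fun x => ?_
  rw [Derivation.neg_apply, Derivation.commutator_apply, Derivation.commutator_apply]
  ring

theorem vf_add_lie (e v w : VF R) : ⁅v + w, e⁆ = ⁅v, e⁆ + ⁅w, e⁆ := by
  rw [vf_skew, vf_lie_add, vf_skew v e, vf_skew w e]
  abel

theorem vf_sub_lie (e v w : VF R) : ⁅v - w, e⁆ = ⁅v, e⁆ - ⁅w, e⁆ := by
  rw [vf_skew, vf_lie_sub, vf_skew v e, vf_skew w e]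
  abel

theorem vf_lie_sum (e : VF R) {κ : Type*} (s : Finset κ) (f : κ → VF R) :
    ⁅e, ∑ i ∈ s, f i⁆ = ∑ i ∈ s, ⁅e, f i⁆ := by
  classical
  induction s using Finset.induction_on with
  | empty => rw [Finset.sum_empty, Finset.sum_empty, vf_lie_zero]
  | insert a s ha ih => rw [Finset.sum_insert ha, Finset.sum_insert ha, vf_lie_add, ih]

/-- the Jacobi identity -/
theorem vf_jacobi (a b c : VF R) : ⁅⁅a, b⁆, c⁆ = ⁅a, ⁅b, c⁆⁆ - ⁅b, ⁅a, c⁆⁆ := by
  refine Derivation.ext fun x => ?_
  rw [Derivation.sub_apply]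
  simp only [Derivation.commutator_apply, map_sub]
  ring

theorem vf_lie_smulC (e v : VF R) (c : ℂ) : ⁅e, c • v⁆ = c • ⁅e, v⁆ := by
  refine Derivation.ext fun x => ?_
  rw [Derivation.commutator_apply, Derivation.smul_apply, Derivation.smul_apply,
    Derivation.smul_apply, Derivation.commutator_apply, Derivation.map_smul, smul_sub]

theorem lie_mem_span {W W' : Set (VF R)} {e u : VF R}
    (hW : W ⊆ Submodule.span (FractionRing R) W')
    (he : ∀ w ∈ W, ⁅e, w⁆ ∈ Submodule.span (FractionRing R) W')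
    (hu : u ∈ Submodule.span (FractionRing R) W) : ⁅e, u⁆ ∈ Submodule.span (FractionRing R) W' := by
  induction hu using Submodule.span_induction with
  | mem x hx => exact he x hx
  | zero => rw [vf_lie_zero]; exact Submodule.zero_mem _
  | add x y _ _ hx hy => rw [vf_lie_add]; exact Submodule.add_mem _ hx hy
  | smul c x hx h =>
    rw [lie_smul_vf]
    refine Submodule.add_mem _ (Submodule.smul_mem _ _ ?_) (Submodule.smul_mem _ _ h)
    exact Submodule.span_le.2 hW hx

theorem RM.lie {W W' : Set (VF R)} {e v : VF R} (hge : RgV q e)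
    (hW : W ⊆ Submodule.span (FractionRing R) W')
    (he : ∀ w ∈ W, ⁅e, w⁆ ∈ Submodule.span (FractionRing R) W') (hv : RM q W v) :
    RM q W' ⁅e, v⁆ := by
  obtain ⟨u, hu, h1⟩ := hv
  exact ⟨⁅e, u⁆, lie_mem_span hW he hu, by rw [← vf_lie_sub]; exact hge.lie h1⟩

end span

/-! ### independent fields -/

variable {r : ℕ} {R : Type} [CommRing R] [IsDomain R] [Algebra ℂ R]
variable {𝒜 : ℕ × (Fin r → ℤ) → Submodule ℂ R} [GradedAlgebra 𝒜]
variable {y : FP 𝒜} {ι : Type} [Fintype ι] [DecidableEq ι] {w : ι → VF R} {χ : ι → Fin r → ℤ}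

/-- test functions for fields which are independent at `y` -/
theorem exists_test (hX : IsTorusManifold 𝒜) (hr : ∀ i, RgV y.q (w i))
    (hv : ∀ i, HV 𝒜 (χ i) (w i)) (hinj : Function.Injective χ) (hne : ∀ i, ¬ ValV y.q (w i) 0) :
    ∃ (d : ι → ℕ) (h : ι → R) (c : ι → ℂ), (∀ i, h i ∈ 𝒜 (d i, d i • y.ν + χ i)) ∧
      (∀ i, c i ≠ 0) ∧ ∀ j i, Val y.q (w i (iK (h j))) (Matrix.diagonal c j i) := by
  choose t ht using fun i => (hr i).val
  have hw : ∀ i, HasWeight 𝒜 y.ν (χ i) (t i) := fun i =>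
    (hv i).hasWeight hX y.nv y.fix (ht i)
  have h1 : ∀ i, ∃ (d : ℕ) (h : R), h ∈ 𝒜 (d, d • y.ν + χ i) ∧ t i h ≠ 0 := by
    intro i
    by_contra hcon
    push Not at hcon
    apply hne i
    have h2 : t i = 0 := by
      refine linearMap_ext_graded 𝒜 fun k a ha => ?_
      rw [LinearMap.zero_apply]
      by_contra h3
      have h4 := hw i k.1 k.2 a ha h3
      have h5 : a ∈ 𝒜 (k.1, k.1 • y.ν + χ i) := by
        rw [← h4]
        exact ha
      exact h3 (hcon k.1 a h5)
    rw [← h2]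
    exact ht i
  choose d h hh hth using h1
  refine ⟨d, h, fun i => t i (h i), hh, hth, fun j i => ?_⟩
  by_cases hij : j = i
  · subst hij
    rw [Matrix.diagonal_apply_eq]
    exact ht j (h j)
  · rw [Matrix.diagonal_apply_ne _ hij]
    have h2 : t i (h j) = 0 := by
      by_contra h3
      have h4 := hw i _ _ _ (hh j) h3
      exact hij (hinj (add_left_cancel h4))
    rw [← h2]
    exact ht i (h j)

/-- the coefficients of a regular combination of independent fields are regular -/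
theorem coeff_rg (hX : IsTorusManifold 𝒜) (hr : ∀ i, RgV y.q (w i))
    (hv : ∀ i, HV 𝒜 (χ i) (w i)) (hinj : Function.Injective χ) (hne : ∀ i, ¬ ValV y.q (w i) 0)
    {g : ι → FractionRing R} (hg : RgV y.q (∑ i, g i • w i)) (i : ι) : Rg y.q (g i) := by
  obtain ⟨d, h, c, -, hc, hA⟩ := exists_test hX hr hv hinj hne
  refine solve_rg (A := Matrix.of fun j i => w i (iK (h j))) (A0 := Matrix.diagonal c)
    (ρ := fun j => (∑ i, g i • w i) (iK (h j))) hA ?_ (fun j => hg (h j)) ?_ i
  · rw [Matrix.det_diagonal]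
    exact Finset.prod_ne_zero_iff.2 fun i _ => hc i
  · funext j
    rw [Matrix.mulVec, dotProduct]
    have h1 : (∑ i, g i • w i : VF R) (iK (h j)) = ∑ i, (g i • w i : VF R) (iK (h j)) := by
      rw [← Derivation.coeFnAddMonoidHom_apply, map_sum, Finset.sum_apply]
      rfl
    show _ = (∑ i, g i • w i : VF R) (iK (h j))
    rw [h1]
    refine Finset.sum_congr rfl fun i _ => ?_
    rw [Derivation.smul_apply, smul_eq_mul, mul_comm]
    rfl

/-- evaluation of a combination -/
theorem sum_smul_apply (g : ι → FractionRing R) (w : ι → VF R) (x : FractionRing R) :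
    (∑ i, g i • w i : VF R) x = ∑ i, g i * w i x := by
  have h1 : (∑ i, g i • w i : VF R) x = ∑ i, (g i • w i : VF R) x := by
    rw [← Derivation.coeFnAddMonoidHom_apply, map_sum, Finset.sum_apply]
    rfl
  rw [h1]
  exact Finset.sum_congr rfl fun i _ => by rw [Derivation.smul_apply, smul_eq_mul]

/-- the value of a regular combination of independent fields -/
theorem coeff_val (hX : IsTorusManifold 𝒜) {t : ι → R →ₗ[ℂ] ℂ} (ht : ∀ i, ValV y.q (w i) (t i))
    (hv : ∀ i, HV 𝒜 (χ i) (w i)) (hinj : Function.Injective χ) (hne : ∀ i, t i ≠ 0)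
    {g : ι → FractionRing R} {T : R →ₗ[ℂ] ℂ} (hg : ValV y.q (∑ i, g i • w i) T) :
    ∃ c : ι → ℂ, (∀ i, Val y.q (g i) (c i)) ∧ T = ∑ i, c i • t i := by
  have h1 := coeff_rg hX (fun i => (ht i).rgV) hv hinj
    (fun i h0 => hne i ((ht i).unique h0)) hg.rgV
  choose c hc using fun i => (h1 i).val
  exact ⟨c, hc, hg.unique (ValV.sum _ fun i _ => ValV.smul (hc i) (ht i))⟩

/-- weight vectors of different weights are independent -/
theorem val_indep {ν : Fin r → ℤ} {t : ι → R →ₗ[ℂ] ℂ} (hw : ∀ i, HasWeight 𝒜 ν (χ i) (t i))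
    (hinj : Function.Injective χ) (hne : ∀ i, t i ≠ 0) {c : ι → ℂ} (h : ∑ i, c i • t i = 0)
    (i : ι) : c i = 0 := by
  by_contra hc
  apply hne i
  refine linearMap_ext_graded 𝒜 fun k a ha => ?_
  rw [LinearMap.zero_apply]
  by_contra h3
  have h4 := hw i k.1 k.2 a ha h3
  have h5 := LinearMap.congr_fun h a
  rw [LinearMap.sum_apply, LinearMap.zero_apply, Finset.sum_eq_single i] at h5
  · rw [LinearMap.smul_apply, smul_eq_mul] at h5
    exact mul_ne_zero hc h3 h5
  · intro j _ hj
    rw [LinearMap.smul_apply, smul_eq_mul]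
    have h6 : t j a = 0 := by
      by_contra h7
      have h8 := hw j k.1 k.2 a ha h7
      rw [h4] at h8
      exact hj (hinj (add_left_cancel h8)).symm
    rw [h6, mul_zero]
  · intro h6
    exact absurd (Finset.mem_univ i) h6

/-- the coefficients of a combination of value `0` vanish at the point -/
theorem coeff_val_zero (hX : IsTorusManifold 𝒜) (hr : ∀ i, RgV y.q (w i))
    (hv : ∀ i, HV 𝒜 (χ i) (w i)) (hinj : Function.Injective χ) (hne : ∀ i, ¬ ValV y.q (w i) 0)
    {g : ι → FractionRing R} (hg : ValV y.q (∑ i, g i • w i) 0) (i : ι) : Val y.q (g i) 0 := by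
  choose t ht using fun i => (hr i).val
  have hne' : ∀ i, t i ≠ 0 := fun i h0 => hne i (by rw [← h0]; exact ht i)
  obtain ⟨c, hc, h0⟩ := coeff_val hX ht hv hinj hne' hg
  have h1 := val_indep (fun i => (hv i).hasWeight hX y.nv y.fix (ht i)) hinj hne' h0.symm i
  rw [← h1]
  exact hc i

/-- the normalisation of a homogeneous field by independent fields, and regularity modulo them -/
theorem exists_hnorm (hX : IsTorusManifold 𝒜) (hr : ∀ i, RgV y.q (w i))
    (hv : ∀ i, HV 𝒜 (χ i) (w i)) (hinj : Function.Injective χ) (hne : ∀ i, ¬ ValV y.q (w i) 0)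
    {v : VF R} {lam : Fin r → ℤ} (hlam : HV 𝒜 lam v) :
    ∃ g : ι → FractionRing R, (∀ i, HK 𝒜 0 (χ i - lam) (g i)) ∧
      (RM y.q (Set.range w) v ↔ RgV y.q (v - ∑ i, g i • w i)) := by
  obtain ⟨d, h, c, hh, hc, hA⟩ := exists_test hX hr hv hinj hne
  set A : Matrix ι ι (FractionRing R) := Matrix.of fun j i => w i (iK (h j)) with hAdef
  have hA' : ∀ i j, Val y.q (A i j) (Matrix.diagonal c i j) := hA
  have hc0 : (Matrix.diagonal c).det ≠ 0 := by
    rw [Matrix.det_diagonal]
    exact Finset.prod_ne_zero_iff.2 fun i _ => hc i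
  have hdet : A.det ≠ 0 := (Val.det hA').ne_zero hc0
  set ρ : ι → FractionRing R := fun j => v (iK (h j)) with hρ
  set g : ι → FractionRing R := A⁻¹ *ᵥ ρ with hg
  have hAg : A *ᵥ g = ρ := by
    rw [hg, Matrix.mulVec_mulVec, Matrix.mul_nonsing_inv _ (isUnit_iff_ne_zero.2 hdet),
      Matrix.one_mulVec]
  have hAH : ∀ j i, HK 𝒜 (d j) ((d j • y.ν + χ j) - χ i) (A j i) := fun j i =>
    hv i _ _ _ (hh j)
  refine ⟨g, fun i => ?_, ⟨?_, fun hR => rm_range.2 ⟨g, hR⟩⟩⟩
  · have h1 := det_mul_eq hAg i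
    have h2 : HK 𝒜 (∑ j, (d j : ℤ)) (∑ j, (d j • y.ν + χ j) -
        ∑ j, Function.update χ i lam j) (A.updateCol i ρ).det := by
      refine HK.det fun j k => ?_
      by_cases hk : k = i
      · subst hk
        rw [Matrix.updateCol_self, Function.update_self]
        exact hlam _ _ _ (hh j)
      · rw [Matrix.updateCol_ne hk, Function.update_of_ne hk]
        exact hAH j k
    have h3 := (HK.det hAH).inv hdet
    have h4 : g i = A.det⁻¹ * (A.updateCol i ρ).det := by
      rw [← h1, ← mul_assoc, inv_mul_cancel₀ hdet, one_mul]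
    rw [h4]
    refine (h3.mul h2).cast (by ring) ?_
    rw [Finset.sum_update_of_mem (Finset.mem_univ i), ← Finset.add_sum_erase _ χ (Finset.mem_univ i)]
    have h5 : Finset.univ \ {i} = Finset.univ.erase i := by
      rw [Finset.sdiff_singleton_eq_erase]
    rw [h5]
    abel
  · intro hR
    obtain ⟨g', hg'⟩ := rm_range.1 hR
    -- `g' - g` is regular
    have h1 : ∀ i, Rg y.q ((g - g') i) := by
      refine solve_rg (A := A) hA' hc0 (ρ := fun j => (v - ∑ i, g' i • w i) (iK (h j)))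
        (fun j => hg' (h j)) ?_
      funext j
      have h2 := congrFun hAg j
      rw [Matrix.mulVec_sub, Pi.sub_apply, h2, Derivation.sub_apply, sum_smul_apply]
      congr 1
      rw [Matrix.mulVec, dotProduct]
      exact Finset.sum_congr rfl fun i _ => by rw [mul_comm]; rfl
    have h2 : v - ∑ i, g i • w i = (v - ∑ i, g' i • w i) - ∑ i, (g - g') i • w i := by
      refine Derivation.ext fun x => ?_
      rw [Derivation.sub_apply, Derivation.sub_apply, Derivation.sub_apply, sum_smul_apply,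
        sum_smul_apply, sum_smul_apply]
      simp only [Pi.sub_apply, sub_mul, Finset.sum_sub_distrib]
      ring
    rw [h2]
    exact hg'.sub (RgV.sum _ fun i _ => RgV.smul (h1 i) (hr i))

/-- a nonzero value of a homogeneous field of weight `χ ≠ 0` makes `χ` a tangent weight -/
theorem pi_of_val (hX : IsTorusManifold 𝒜) {χ : Fin r → ℤ} (hχ : χ ≠ 0) {v : VF R}
    (hv : HV 𝒜 χ v) {t : R →ₗ[ℂ] ℂ} (ht : ValV y.q v t) (hne : t ≠ 0) : y.Pi χ :=
  tangentWeight_of_ne y.fix hχ ht.isTangent (hv.hasWeight hX y.nv y.fix ht) hne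

/-- a regular homogeneous field of weight `χ ≠ 0` vanishes at `y` if `χ` is no tangent weight -/
theorem val_zero_of_not_pi (hX : IsTorusManifold 𝒜) {χ : Fin r → ℤ} (hχ : χ ≠ 0) {v : VF R}
    (hv : HV 𝒜 χ v) (hr : RgV y.q v) (h : ¬ y.Pi χ) : ValV y.q v 0 := by
  obtain ⟨t, ht⟩ := hr.val
  by_cases h0 : t = 0
  · rw [← h0]
    exact ht
  · exact absurd (pi_of_val hX hχ hv ht h0) h

end Vale.Agent.P280.N
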