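import Vale.Agent.P280.H83.Api1
import Vale.Agent.P280.H93.Minors

/-! P280, plan N: API of the definitions, part 2 (homogeneous rational functions and fields). -/

open DirectSum Vale.Agent.P280.T Vale.Agent.P280.H127

set_option linter.all false
set_option linter.unusedSectionVars false

namespace Vale.Agent.P280.N

variable {r : ℕ} {R : Type} [CommRing R] [IsDomain R] [Algebra ℂ R]
variable {𝒜 : ℕ × (Fin r → ℤ) → Submodule ℂ R} [GradedAlgebra 𝒜]

theorem mem_unique {i j : ℕ × (Fin r → ℤ)} {x : R} (hi : x ∈ 𝒜 i) (hj : x ∈ 𝒜 j) (hx : x ≠ 0) :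
    i = j := by
  by_contra h
  apply hx
  rw [← DirectSum.decompose_of_mem_same 𝒜 hj, DirectSum.decompose_of_mem_ne 𝒜 hi h]

/-- division by a homogeneous element -/
theorem mem_of_mul {i j : ℕ × (Fin r → ℤ)} {g a : R} (hg : g ∈ 𝒜 i) (hg0 : g ≠ 0)
    (h : g * a ∈ 𝒜 (i + j)) : a ∈ 𝒜 j := by
  classical
  have key : ∀ k, k ≠ j → ((DirectSum.decompose 𝒜 a) k : R) = 0 := by
    intro k hk
    have h1 := DirectSum.coe_decompose_mul_add_of_left_mem 𝒜 (b := a) (j := k) hg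
    rw [DirectSum.decompose_of_mem_ne 𝒜 h (fun h2 => hk (add_left_cancel h2).symm)] at h1
    rcases mul_eq_zero.1 h1.symm with h3 | h3
    · exact absurd h3 hg0
    · exact h3
  rw [← DirectSum.sum_support_decompose 𝒜 a]
  refine Submodule.sum_mem _ fun k _ => ?_
  by_cases hk : k = j
  · subst hk
    exact (DirectSum.decompose 𝒜 a k).2
  · rw [key k hk]
    exact Submodule.zero_mem _

section hk
variable {d d' : ℤ} {m m' : Fin r → ℤ} {x y : FractionRing R}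

theorem HK.ofR {d : ℕ} {h : R} (hh : h ∈ 𝒜 (d, m)) : HK 𝒜 d m (iK h) :=
  ⟨d, 0, m, 0, h, hh, 1, SetLike.GradedOne.one_mem, one_ne_zero, by rw [iK_one, one_mul],
    by simp, by simp⟩

theorem HK.mul (hx : HK 𝒜 d m x) (hy : HK 𝒜 d' m' y) : HK 𝒜 (d + d') (m + m') (x * y) := by
  obtain ⟨a, b, n, n', f, hf, g, hg, hg0, h1, h2, h3⟩ := hx
  obtain ⟨a1, b1, n1, n1', f1, hf1, g1, hg1, hg10, k1, k2, k3⟩ := hy
  refine ⟨a + a1, b + b1, n + n1, n' + n1', f * f1, SetLike.mul_mem_graded hf hf1, g * g1,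
    SetLike.mul_mem_graded hg hg1, mul_ne_zero hg0 hg10, ?_, ?_, ?_⟩
  · rw [iK_mul, iK_mul, ← h1, ← k1]
    ring
  · rw [h2, k2]
    push_cast
    ring
  · rw [h3, k3]
    abel

theorem HK.add (hx : HK 𝒜 d m x) (hy : HK 𝒜 d m y) : HK 𝒜 d m (x + y) := by
  obtain ⟨a, b, n, n', f, hf, g, hg, hg0, h1, h2, h3⟩ := hx
  obtain ⟨a1, b1, n1, n1', f1, hf1, g1, hg1, hg10, k1, k2, k3⟩ := hy
  have e : (a + b1, n + n1') = (a1 + b, n1 + n') := by
    have e1 : a + b1 = a1 + b := by omega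
    have e2 : n + n1' = n1 + n' := by
      have h4 : n - n' = n1 - n1' := by rw [← h3, ← k3]
      have h5 : n = n1 - n1' + n' := by rw [← h4]; abel
      rw [h5]
      abel
    rw [e1, e2]
  refine ⟨a + b1, b + b1, n + n1', n' + n1', f * g1 + f1 * g, Submodule.add_mem _
    (SetLike.mul_mem_graded hf hg1) (by rw [e]; exact SetLike.mul_mem_graded hf1 hg), g * g1,
    SetLike.mul_mem_graded hg hg1, mul_ne_zero hg0 hg10, ?_, ?_, ?_⟩
  · rw [iK_mul, iK_add, iK_mul, iK_mul, ← h1, ← k1]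
    ring
  · rw [h2]
    push_cast
    ring
  · rw [h3]
    abel

theorem HK.smul (c : ℂ) (hx : HK 𝒜 d m x) : HK 𝒜 d m (c • x) := by
  obtain ⟨a, b, n, n', f, hf, g, hg, hg0, h1, h2, h3⟩ := hx
  exact ⟨a, b, n, n', c • f, Submodule.smul_mem _ _ hf, g, hg, hg0,
    by rw [iK_smul, ← h1, mul_smul_comm], h2, h3⟩

theorem HK.neg (hx : HK 𝒜 d m x) : HK 𝒜 d m (-x) := by
  have h := hx.smul (-1)
  rwa [neg_smul, one_smul] at h

theorem HK.sub (hx : HK 𝒜 d m x) (hy : HK 𝒜 d m y) : HK 𝒜 d m (x - y) := by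
  rw [sub_eq_add_neg]
  exact hx.add hy.neg

theorem HK.inv (hx : HK 𝒜 d m x) (h0 : x ≠ 0) : HK 𝒜 (-d) (-m) x⁻¹ := by
  obtain ⟨a, b, n, n', f, hf, g, hg, hg0, h1, h2, h3⟩ := hx
  have hf0 : f ≠ 0 := by
    rintro rfl
    rw [iK_zero] at h1
    exact mul_ne_zero (iK_ne_zero hg0) h0 h1
  refine ⟨b, a, n', n, g, hg, f, hf, hf0, ?_, ?_, ?_⟩
  · rw [← h1]
    field_simp
  · rw [h2]
    ring
  · rw [h3]
    abel

theorem HK.one : HK 𝒜 0 0 (1 : FractionRing R) := by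
  have h := HK.ofR (𝒜 := 𝒜) (d := 0) (m := 0) (h := (1 : R)) SetLike.GradedOne.one_mem
  rw [iK_one] at h
  exact h

theorem HK.const (c : ℂ) : HK 𝒜 0 0 (algebraMap ℂ (FractionRing R) c) := by
  rw [Algebra.algebraMap_eq_smul_one]
  exact HK.one.smul c

theorem HK.zero (hd : 0 ≤ d) : HK 𝒜 d m (0 : FractionRing R) := by
  lift d to ℕ using hd
  have h := HK.ofR (𝒜 := 𝒜) (d := d) (m := m) (h := (0 : R)) (Submodule.zero_mem _)
  rwa [iK_zero] at h

theorem HK.unique (hx : HK 𝒜 d m x) (hx' : HK 𝒜 d' m' x) (h0 : x ≠ 0) : d = d' ∧ m = m' := by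
  obtain ⟨a, b, n, n', f, hf, g, hg, hg0, h1, h2, h3⟩ := hx
  obtain ⟨a1, b1, n1, n1', f1, hf1, g1, hg1, hg10, k1, k2, k3⟩ := hx'
  have hf0 : f ≠ 0 := by
    rintro rfl
    rw [iK_zero] at h1
    exact mul_ne_zero (iK_ne_zero hg0) h0 h1
  have e : f * g1 = f1 * g := by
    apply iK_inj
    rw [iK_mul, iK_mul, ← h1, ← k1]
    ring
  have e1 : f * g1 ∈ 𝒜 ((a, n) + (b1, n1')) := SetLike.mul_mem_graded hf hg1
  have e2 : f * g1 ∈ 𝒜 ((a1, n1) + (b, n')) := by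
    rw [e]
    exact SetLike.mul_mem_graded hf1 hg
  have e3 := mem_unique e1 e2 (mul_ne_zero hf0 hg10)
  have e4 : a + b1 = a1 + b := congrArg Prod.fst e3
  have e5 : n + n1' = n1 + n' := congrArg Prod.snd e3
  constructor
  · omega
  · rw [h3, k3]
    have h5 : n = n1 + n' - n1' := by rw [← e5]; abel
    rw [h5]
    abel

/-- a homogeneous rational function which is in `R` is homogeneous in `R` -/
theorem HK.mem {d : ℕ} {a : R} (h : HK 𝒜 d m (Vale.Agent.P280.N.iK a)) : a ∈ 𝒜 (d, m) := by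
  obtain ⟨a1, b, n, n', f, hf, g, hg, hg0, h1, h2, h3⟩ := h
  have e : g * a = f := by
    apply iK_inj
    rw [iK_mul, h1]
  refine mem_of_mul (i := (b, n')) hg hg0 ?_
  rw [e]
  have e1 : (b, n') + (d, m) = (a1, n) := by
    have e2 : b + d = a1 := by omega
    have e3 : n' + m = n := by rw [h3]; abel
    rw [Prod.mk_add_mk, e2, e3]
  rw [e1]
  exact hf

theorem HK.sum {ι : Type*} (s : Finset ι) {f : ι → FractionRing R} (hd : 0 ≤ d)
    (h : ∀ i ∈ s, HK 𝒜 d m (f i)) : HK 𝒜 d m (∑ i ∈ s, f i) :=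
  Finset.sum_induction f (HK 𝒜 d m) (fun _ _ => HK.add) (HK.zero hd) h

theorem HK.prod {ι : Type*} (s : Finset ι) {f : ι → FractionRing R} {d : ι → ℤ}
    {m : ι → Fin r → ℤ} (h : ∀ i ∈ s, HK 𝒜 (d i) (m i) (f i)) :
    HK 𝒜 (∑ i ∈ s, d i) (∑ i ∈ s, m i) (∏ i ∈ s, f i) := by
  classical
  induction s using Finset.induction_on with
  | empty => rw [Finset.sum_empty, Finset.sum_empty, Finset.prod_empty]; exact HK.one
  | insert a s ha ih =>
    rw [Finset.sum_insert ha, Finset.sum_insert ha, Finset.prod_insert ha]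
    exact (h a (Finset.mem_insert_self _ _)).mul
      (ih fun i hi => h i (Finset.mem_insert_of_mem hi))

theorem HK.cast (hx : HK 𝒜 d m x) (h1 : d = d') (h2 : m = m') : HK 𝒜 d' m' x := by
  subst h1 h2
  exact hx

end hk

/-! ### fields -/

section hv
variable {χ χ' : Fin r → ℤ} {v w : VF R}

/-- a homogeneous field maps homogeneous functions to homogeneous functions -/
theorem HV.app (hv : HV 𝒜 χ v) {d : ℤ} {m : Fin r → ℤ} {x : FractionRing R} (hx : HK 𝒜 d m x) :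
    HK 𝒜 d (m - χ) (v x) := by
  have hx' := hx
  obtain ⟨a, b, n, n', f, hf, g, hg, hg0, h1, h2, h3⟩ := hx
  have h4 := vf_of_mul v h1
  have h5 : HK 𝒜 a (n - χ) (v (iK f)) := hv a n f hf
  have h6 : HK 𝒜 (d + b) (m + (n' - χ)) (x * v (iK g)) := hx'.mul (hv b n' g hg)
  have h7 : HK 𝒜 a (n - χ) (v (iK f) - x * v (iK g)) := by
    refine h5.sub (h6.cast (by rw [h2]; ring) (by rw [h3]; abel))
  rw [← h4] at h7
  have h8 := (HK.ofR (𝒜 := 𝒜) hg).inv (iK_ne_zero hg0)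
  have h9 := h8.mul h7
  rw [← mul_assoc, inv_mul_cancel₀ (iK_ne_zero hg0), one_mul] at h9
  exact h9.cast (by rw [h2]; ring) (by rw [h3]; abel)

theorem HV.zero : HV 𝒜 χ (0 : VF R) := fun d m h hh => by
  rw [Derivation.zero_apply]; exact HK.zero (Int.natCast_nonneg d)

theorem HV.add (hv : HV 𝒜 χ v) (hw : HV 𝒜 χ w) : HV 𝒜 χ (v + w) := fun d m h hh => by
  rw [Derivation.add_apply]; exact (hv d m h hh).add (hw d m h hh)

theorem HV.neg (hv : HV 𝒜 χ v) : HV 𝒜 χ (-v) := fun d m h hh => by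
  rw [Derivation.neg_apply]; exact (hv d m h hh).neg

theorem HV.sub (hv : HV 𝒜 χ v) (hw : HV 𝒜 χ w) : HV 𝒜 χ (v - w) := fun d m h hh => by
  rw [Derivation.sub_apply]; exact (hv d m h hh).sub (hw d m h hh)

theorem HV.smulC (c : ℂ) (hv : HV 𝒜 χ v) : HV 𝒜 χ (c • v) := fun d m h hh => by
  rw [Derivation.smul_apply]; exact (hv d m h hh).smul c

/-- multiplication by a homogeneous function of degree zero and weight `μ` -/
theorem HV.smul {μ : Fin r → ℤ} {x : FractionRing R} (hx : HK 𝒜 0 μ x) (hv : HV 𝒜 χ v) :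
    HV 𝒜 (χ - μ) (x • v) := fun d m h hh => by
  rw [Derivation.smul_apply, smul_eq_mul]
  exact (hx.mul (hv d m h hh)).cast (by ring) (by abel)

theorem HV.cast (hv : HV 𝒜 χ v) (h : χ = χ') : HV 𝒜 χ' v := by
  subst h
  exact hv

theorem HV.sum {ι : Type*} (s : Finset ι) {f : ι → VF R} (h : ∀ i ∈ s, HV 𝒜 χ (f i)) :
    HV 𝒜 χ (∑ i ∈ s, f i) :=
  Finset.sum_induction f (HV 𝒜 χ) (fun _ _ => HV.add) HV.zero h

theorem HV.lie (hv : HV 𝒜 χ v) (hw : HV 𝒜 χ' w) : HV 𝒜 (χ + χ') ⁅v, w⁆ := fun d m h hh => by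
  rw [Derivation.commutator_apply]
  exact ((hv.app (hw d m h hh)).cast rfl (by abel)).sub
    ((hw.app (hv d m h hh)).cast rfl (by abel))

/-- a rational field is determined by its values on homogeneous elements -/
theorem vf_ext_hom (h : ∀ d m, ∀ a ∈ 𝒜 (d, m), v (iK a) = w (iK a)) : v = w := by
  classical
  refine vf_ext fun a => ?_
  rw [← DirectSum.sum_support_decompose 𝒜 a, iK_sum, map_sum, map_sum]
  exact Finset.sum_congr rfl fun i _ => h i.1 i.2 _ (DirectSum.decompose 𝒜 a i).2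

theorem vf_eq_zero_hom (h : ∀ d m, ∀ a ∈ 𝒜 (d, m), v (iK a) = 0) : v = 0 :=
  vf_ext_hom (𝒜 := 𝒜) fun d m a ha => by rw [h d m a ha, Derivation.zero_apply]

theorem HV.unique (hv : HV 𝒜 χ v) (hv' : HV 𝒜 χ' v) (h0 : v ≠ 0) : χ = χ' := by
  by_contra hne
  apply h0
  refine vf_eq_zero_hom (𝒜 := 𝒜) fun d m a ha => ?_
  by_contra h1
  have h2 := ((hv d m a ha).unique (hv' d m a ha) h1).2
  exact hne (sub_right_injective h2)

/-- a homogeneous global field is homogeneous on `R` -/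
theorem HV.isHField {D : Derivation ℂ R R} (h : HV 𝒜 χ (toVF D)) : H93.IsHField 𝒜 χ D := by
  intro d m a ha
  have h1 := h d m a ha
  rw [toVF_iK] at h1
  exact h1.mem

theorem hv_toVF {D : Derivation ℂ R R} (h : H93.IsHField 𝒜 χ D) : HV 𝒜 χ (toVF D) := by
  intro d m a ha
  rw [toVF_iK]
  exact HK.ofR (h d m a ha)

theorem Glob.exists_hder (hg : Glob v) (hv : HV 𝒜 χ v) :
    ∃ D : Derivation ℂ R R, toVF D = v ∧ H93.IsHField 𝒜 χ D := by
  obtain ⟨D, rfl⟩ := hg.exists_der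
  exact ⟨D, rfl, hv.isHField⟩

end hv

/-! ### at a fixed point -/

section fixed
variable {q : R →ₐ[ℂ] ℂ} {ν : Fin r → ℤ}

/-- some component of an element which does not vanish at the point does not vanish there -/
theorem exists_comp_ne {s : R} (hs : q s ≠ 0) : ∃ i : ℕ × (Fin r → ℤ),
    q ((DirectSum.decompose 𝒜 s) i : R) ≠ 0 := by
  classical
  by_contra h
  push Not at h
  apply hs
  rw [← DirectSum.sum_support_decompose 𝒜 s, map_sum]
  exact Finset.sum_eq_zero fun i _ => h i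

/-- homogeneous denominators -/
theorem HK.exists_den (hX : IsTorusManifold 𝒜) (hq : ¬ IsVertex 𝒜 q) (hf : IsFixed 𝒜 q ν)
    {d : ℤ} {m : Fin r → ℤ} {x : FractionRing R} (hx : HK 𝒜 d m x) (hr : Rg q x) :
    ∃ (k k' : ℕ) (s a : R), s ∈ 𝒜 (k, k • ν) ∧ a ∈ 𝒜 (k', m + k • ν) ∧ (k' : ℤ) = d + k ∧
      q s = 1 ∧ iK s * x = iK a := by
  classical
  obtain ⟨f0, hf0, hf1⟩ := exists_deg_one_ne hX.gen hq hf
  obtain ⟨a1, s1, hs1, e1⟩ := hr
  obtain ⟨a, b, n, n', f, hff, g, hg, hg0, h1, h2, h3⟩ := hx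
  obtain ⟨⟨k0, m0⟩, hk⟩ := exists_comp_ne (𝒜 := 𝒜) hs1
  have hm0 : m0 = k0 • ν := hf k0 m0 _ (DirectSum.decompose 𝒜 s1 (k0, m0)).2 hk
  -- multiply by `f0 ^ b`
  set s2 : R := f0 ^ b * ((DirectSum.decompose 𝒜 s1) (k0, m0) : R) with hs2
  have hs2m : s2 ∈ 𝒜 (b + k0, (b + k0) • ν) := by
    have h4 := SetLike.pow_mem_graded b hf0
    have h5 := SetLike.mul_mem_graded h4 (DirectSum.decompose 𝒜 s1 (k0, m0)).2
    have e : b • (1, ν) + (k0, m0) = (b + k0, (b + k0) • ν) := by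
      rw [hm0, add_smul]
      ext <;> simp
    rw [e] at h5
    exact h5
  have hqs2 : q s2 ≠ 0 := by
    rw [hs2, map_mul, map_pow]
    exact mul_ne_zero (pow_ne_zero _ hf1) hk
  -- `g` divides `s2 * f`
  have e2 : s1 * f = g * a1 := by
    apply iK_inj
    rw [iK_mul, iK_mul, ← h1, ← e1]
    ring
  have h6 : g ∣ ((DirectSum.decompose 𝒜 (s1 * f)) ((k0, m0) + (a, n)) : R) :=
    dvd_component hg ⟨a1, e2⟩ _
  rw [DirectSum.coe_decompose_mul_add_of_right_mem 𝒜 hff] at h6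
  have h7 : g ∣ s2 * f := by
    rw [hs2, mul_assoc]
    exact dvd_mul_of_dvd_right h6 _
  obtain ⟨c, hc⟩ := h7
  have h8 : c ∈ 𝒜 (a + k0, m + (b + k0) • ν) := by
    refine mem_of_mul (i := (b, n')) hg hg0 ?_
    rw [← hc]
    have h9 := SetLike.mul_mem_graded hs2m hff
    have e : (b + k0, (b + k0) • ν) + (a, n) = (b, n') + (a + k0, m + (b + k0) • ν) := by
      rw [Prod.mk_add_mk, Prod.mk_add_mk, h3]
      ext
      · simp only
        omega
      · simp only [Pi.add_apply, Pi.sub_apply, Pi.smul_apply]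
        ring
    rw [e] at h9
    exact h9
  have h10 : iK s2 * x = iK c := by
    have h11 : iK g * (iK s2 * x) = iK g * iK c := by
      rw [← iK_mul g c, ← hc, iK_mul s2 f, ← h1]
      ring
    exact mul_left_cancel₀ (iK_ne_zero hg0) h11
  refine ⟨b + k0, a + k0, (q s2)⁻¹ • s2, (q s2)⁻¹ • c, Submodule.smul_mem _ _ hs2m,
    Submodule.smul_mem _ _ h8, ?_, ?_, ?_⟩
  · rw [h2]
    push_cast
    ring
  · rw [map_smul, smul_eq_mul, inv_mul_cancel₀ hqs2]
  · rw [iK_smul, iK_smul, smul_mul_assoc, h10]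

/-- the weight of a homogeneous function which does not vanish at a fixed point -/
theorem HK.weight (hX : IsTorusManifold 𝒜) (hq : ¬ IsVertex 𝒜 q) (hf : IsFixed 𝒜 q ν)
    {d : ℤ} {m : Fin r → ℤ} {x : FractionRing R} (hx : HK 𝒜 d m x) {c : ℂ} (hc : Val q x c)
    (hc0 : c ≠ 0) : m = d • ν := by
  obtain ⟨k, k', s, a, h1, h2, h3, h4, h5⟩ := hx.exists_den hX hq hf hc.rg
  have h6 : Val q (iK a) (1 * c) := by
    rw [← h5, ← h4]
    exact (Val.iK s).mul hc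
  have h7 : q a = c := by rw [(Val.iK a).unique h6, one_mul]
  have h8 := hf _ _ a h2 (by rw [h7]; exact hc0)
  have h9 : m = (k' : ℤ) • ν - (k : ℤ) • ν := by
    rw [natCast_zsmul, natCast_zsmul, ← h8]
    abel
  rw [h9, h3, add_smul]
  abel

/-- the value of a homogeneous field at a fixed point has its weight -/
theorem HV.hasWeight (hX : IsTorusManifold 𝒜) (hq : ¬ IsVertex 𝒜 q) (hf : IsFixed 𝒜 q ν)
    {χ : Fin r → ℤ} {v : VF R} (hv : HV 𝒜 χ v) {t : R →ₗ[ℂ] ℂ} (ht : ValV q v t) :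
    HasWeight 𝒜 ν χ t := by
  intro d m h hh hne
  have h1 := (hv d m h hh).weight hX hq hf (ht h) hne
  rw [natCast_zsmul] at h1
  rw [← h1]
  abel

end fixed

end Vale.Agent.P280.N
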