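import Vale.Agent.P280.N.Defs

/-! P280, plan N: API of the definitions, part 1 (regular functions and fields at a point). -/

open DirectSum Vale.Agent.P280.T Vale.Agent.P280.H127

namespace Vale.Agent.P280.N

set_option linter.all false
set_option linter.unusedSectionVars false

variable {R : Type} [CommRing R] [IsDomain R] [Algebra ℂ R]

theorem iK_inj : Function.Injective (iK : R → FractionRing R) := IsFractionRing.injective R _

theorem iK_eq_zero {a : R} : iK a = 0 ↔ a = 0 := by
  constructor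
  · intro h
    exact iK_inj (by rw [h]; exact (map_zero (algebraMap R (FractionRing R))).symm)
  · rintro rfl
    exact map_zero _

theorem iK_ne_zero {a : R} (h : a ≠ 0) : iK a ≠ 0 := fun h' => h (iK_eq_zero.1 h')

theorem iK_mul (a b : R) : iK (a * b) = iK a * iK b := map_mul _ _ _
theorem iK_add (a b : R) : iK (a + b) = iK a + iK b := map_add _ _ _
theorem iK_sub (a b : R) : iK (a - b) = iK a - iK b := map_sub _ _ _
theorem iK_neg (a : R) : iK (-a) = -iK a := map_neg _ _
theorem iK_one : iK (1 : R) = 1 := map_one _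
theorem iK_zero : iK (0 : R) = 0 := map_zero _
theorem iK_pow (a : R) (n : ℕ) : iK (a ^ n) = iK a ^ n := map_pow _ _ _
theorem iK_smul (c : ℂ) (a : R) : iK (c • a) = c • iK a := by
  rw [Algebra.smul_def, iK_mul, Algebra.smul_def]
  congr 1
theorem iK_sum {ι : Type*} (s : Finset ι) (f : ι → R) : iK (∑ i ∈ s, f i) = ∑ i ∈ s, iK (f i) :=
  map_sum _ _ _
theorem iK_prod {ι : Type*} (s : Finset ι) (f : ι → R) :
    iK (∏ i ∈ s, f i) = ∏ i ∈ s, iK (f i) := map_prod _ _ _

theorem ne_zero_of_q {q : R →ₐ[ℂ] ℂ} {s : R} (h : q s ≠ 0) : s ≠ 0 := by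
  rintro rfl
  exact h (map_zero q)

section rg
variable {q : R →ₐ[ℂ] ℂ}

/-! ### values -/

theorem Val.rg {x : FractionRing R} {c : ℂ} (h : Val q x c) : Rg q x := by
  obtain ⟨a, s, h1, h2, -⟩ := h
  exact ⟨a, s, h1, h2⟩

theorem rg_iff_val {x : FractionRing R} : Rg q x ↔ ∃ c, Val q x c := by
  constructor
  · rintro ⟨a, s, h1, h2⟩
    exact ⟨q a / q s, a, s, h1, h2, by field_simp⟩
  · rintro ⟨c, h⟩
    exact h.rg

theorem Rg.val {x : FractionRing R} (h : Rg q x) : ∃ c, Val q x c := rg_iff_val.1 h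

theorem Val.unique {x : FractionRing R} {c c' : ℂ} (h : Val q x c) (h' : Val q x c') : c = c' := by
  obtain ⟨a, s, h1, h2, h3⟩ := h
  obtain ⟨a', s', h1', h2', h3'⟩ := h'
  have h4 : s' * a = s * a' := by
    apply iK_inj
    show iK (s' * a) = iK (s * a')
    rw [iK_mul, iK_mul, ← h2, ← h2']
    ring
  have h5 := congrArg q h4
  rw [map_mul, map_mul, h3, h3'] at h5
  have h6 : (q s * q s') * (c - c') = 0 := by linear_combination h5
  rcases mul_eq_zero.1 h6 with h7 | h7
  · exact absurd h7 (mul_ne_zero h1 h1')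
  · exact sub_eq_zero.1 h7

theorem Val.iK (a : R) : Val q (iK a) (q a) :=
  ⟨a, 1, by rw [map_one]; exact one_ne_zero, by rw [iK_one, one_mul], by rw [map_one, one_mul]⟩

theorem Val.zero : Val q (0 : FractionRing R) 0 := by
  have h := Val.iK (q := q) (0 : R)
  rwa [iK_zero, map_zero] at h

theorem Val.one : Val q (1 : FractionRing R) 1 := by
  have h := Val.iK (q := q) (1 : R)
  rwa [iK_one, map_one] at h

theorem Val.add {x y : FractionRing R} {c d : ℂ} (hx : Val q x c) (hy : Val q y d) :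
    Val q (x + y) (c + d) := by
  obtain ⟨a, s, h1, h2, h3⟩ := hx
  obtain ⟨b, t, k1, k2, k3⟩ := hy
  refine ⟨t * a + s * b, s * t, by rw [map_mul]; exact mul_ne_zero h1 k1, ?_, ?_⟩
  · rw [iK_mul, iK_add, iK_mul, iK_mul, ← h2, ← k2]
    ring
  · rw [map_add, map_mul, map_mul, map_mul, h3, k3]
    ring

theorem Val.mul {x y : FractionRing R} {c d : ℂ} (hx : Val q x c) (hy : Val q y d) :
    Val q (x * y) (c * d) := by
  obtain ⟨a, s, h1, h2, h3⟩ := hx
  obtain ⟨b, t, k1, k2, k3⟩ := hy
  refine ⟨a * b, s * t, by rw [map_mul]; exact mul_ne_zero h1 k1, ?_, ?_⟩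
  · rw [iK_mul, iK_mul, ← h2, ← k2]
    ring
  · rw [map_mul, map_mul, h3, k3]
    ring

theorem Val.smul {x : FractionRing R} {d : ℂ} (c : ℂ) (hx : Val q x d) :
    Val q (c • x) (c * d) := by
  obtain ⟨a, s, h1, h2, h3⟩ := hx
  refine ⟨c • a, s, h1, ?_, ?_⟩
  · rw [iK_smul, ← h2, mul_smul_comm]
  · rw [map_smul, h3, smul_eq_mul]
    ring

theorem Val.neg {x : FractionRing R} {d : ℂ} (hx : Val q x d) : Val q (-x) (-d) := by
  have h := hx.smul (-1)
  rwa [neg_smul, one_smul, neg_one_mul] at h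

theorem Val.sub {x y : FractionRing R} {c d : ℂ} (hx : Val q x c) (hy : Val q y d) :
    Val q (x - y) (c - d) := by
  rw [sub_eq_add_neg, sub_eq_add_neg]
  exact hx.add hy.neg

theorem Val.sum {ι : Type*} (s : Finset ι) {f : ι → FractionRing R} {c : ι → ℂ}
    (h : ∀ i ∈ s, Val q (f i) (c i)) : Val q (∑ i ∈ s, f i) (∑ i ∈ s, c i) := by
  classical
  induction s using Finset.induction_on with
  | empty => rw [Finset.sum_empty, Finset.sum_empty]; exact Val.zero
  | insert a s ha ih =>
    rw [Finset.sum_insert ha, Finset.sum_insert ha]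
    exact (h a (Finset.mem_insert_self _ _)).add
      (ih fun i hi => h i (Finset.mem_insert_of_mem hi))

theorem Val.pow {x : FractionRing R} {c : ℂ} (h : Val q x c) (n : ℕ) : Val q (x ^ n) (c ^ n) := by
  induction n with
  | zero => rw [pow_zero, pow_zero]; exact Val.one
  | succ n ih => rw [pow_succ, pow_succ]; exact ih.mul h

theorem Val.inv {x : FractionRing R} {c : ℂ} (h : Val q x c) (hc : c ≠ 0) : Val q x⁻¹ c⁻¹ := by
  obtain ⟨a, s, h1, h2, h3⟩ := h
  have h4 : q a ≠ 0 := by rw [h3]; exact mul_ne_zero h1 hc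
  refine ⟨s, a, h4, ?_, ?_⟩
  · have h5 : x ≠ 0 := by
      rintro rfl
      rw [mul_zero] at h2
      exact iK_ne_zero (ne_zero_of_q h4) h2.symm
    rw [← h2]
    field_simp
  · rw [h3]
    field_simp

theorem Val.ne_zero {x : FractionRing R} {c : ℂ} (h : Val q x c) (hc : c ≠ 0) : x ≠ 0 := by
  rintro rfl
  exact hc (h.unique Val.zero)

theorem Val.algebraMap (c : ℂ) : Val q (algebraMap ℂ (FractionRing R) c) c := by
  have h := (Val.one (q := q)).smul c
  rwa [mul_one, ← Algebra.algebraMap_eq_smul_one] at h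

/-! ### regular functions -/

theorem Rg.iK (a : R) : Rg q (iK a) := (Val.iK a).rg
theorem Rg.zero : Rg q (0 : FractionRing R) := Val.zero.rg
theorem Rg.one : Rg q (1 : FractionRing R) := Val.one.rg

theorem Rg.add {x y : FractionRing R} (hx : Rg q x) (hy : Rg q y) : Rg q (x + y) := by
  obtain ⟨c, hc⟩ := hx.val
  obtain ⟨d, hd⟩ := hy.val
  exact (hc.add hd).rg

theorem Rg.mul {x y : FractionRing R} (hx : Rg q x) (hy : Rg q y) : Rg q (x * y) := by
  obtain ⟨c, hc⟩ := hx.val
  obtain ⟨d, hd⟩ := hy.val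
  exact (hc.mul hd).rg

theorem Rg.neg {x : FractionRing R} (hx : Rg q x) : Rg q (-x) := by
  obtain ⟨c, hc⟩ := hx.val
  exact hc.neg.rg

theorem Rg.sub {x y : FractionRing R} (hx : Rg q x) (hy : Rg q y) : Rg q (x - y) := by
  rw [sub_eq_add_neg]
  exact hx.add hy.neg

theorem Rg.smul {x : FractionRing R} (c : ℂ) (hx : Rg q x) : Rg q (c • x) := by
  obtain ⟨d, hd⟩ := hx.val
  exact (hd.smul c).rg

theorem Rg.sum {ι : Type*} (s : Finset ι) {f : ι → FractionRing R}
    (h : ∀ i ∈ s, Rg q (f i)) : Rg q (∑ i ∈ s, f i) :=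
  Finset.sum_induction f (Rg q) (fun _ _ => Rg.add) Rg.zero h

theorem Rg.pow {x : FractionRing R} (h : Rg q x) (n : ℕ) : Rg q (x ^ n) := by
  obtain ⟨c, hc⟩ := h.val
  exact (hc.pow n).rg

/-- divide by a function which does not vanish at the point -/
theorem Rg.of_mul {s : R} (hs : q s ≠ 0) {x : FractionRing R} (h : Rg q (Vale.Agent.P280.N.iK s * x)) :
    Rg q x := by
  obtain ⟨a, t, h1, h2⟩ := h
  exact ⟨a, t * s, by rw [map_mul]; exact mul_ne_zero h1 hs, by rw [iK_mul, mul_assoc, h2]⟩

theorem Rg.mul_iff {u x : FractionRing R} {c : ℂ} (hu : Val q u c) (hc : c ≠ 0) :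
    Rg q (u * x) ↔ Rg q x := by
  constructor
  · intro h
    have h1 := (hu.inv hc).rg.mul h
    rwa [← mul_assoc, inv_mul_cancel₀ (hu.ne_zero hc), one_mul] at h1
  · intro h
    exact hu.rg.mul h

end rg

/-! ### fields -/

/-- a rational field is determined by its values on `R` -/
theorem vf_ext {v w : VF R} (h : ∀ a : R, v (iK a) = w (iK a)) : v = w := by
  refine Derivation.ext fun x => ?_
  obtain ⟨a, s, hs, rfl⟩ := IsFractionRing.div_surjective (A := R) x
  have hs0 : (algebraMap R (FractionRing R) s) ≠ 0 := iK_ne_zero (nonZeroDivisors.ne_zero hs)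
  have key : ∀ u : VF R, algebraMap R (FractionRing R) s *
      u (algebraMap R (FractionRing R) a / algebraMap R (FractionRing R) s) =
      u (iK a) - (algebraMap R (FractionRing R) a / algebraMap R (FractionRing R) s) *
        u (iK s) := by
    intro u
    have h1 : u (iK a) = u (algebraMap R (FractionRing R) s *
        (algebraMap R (FractionRing R) a / algebraMap R (FractionRing R) s)) := by
      congr 1
      show algebraMap R (FractionRing R) a = _
      field_simp
    rw [h1, Derivation.leibniz, smul_eq_mul, smul_eq_mul]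
    show _ = _ - _ * u (algebraMap R (FractionRing R) s)
    ring
  apply mul_left_cancel₀ hs0
  rw [key, key, h, h]

/-- the value on a quotient -/
theorem vf_of_mul (v : VF R) {a s : R} {x : FractionRing R} (h : iK s * x = iK a) :
    iK s * v x = v (iK a) - x * v (iK s) := by
  rw [← h, Derivation.leibniz, smul_eq_mul, smul_eq_mul]
  ring

variable {q : R →ₐ[ℂ] ℂ}

theorem RgV.zero : RgV q (0 : VF R) := fun h => by
  rw [Derivation.zero_apply]; exact Rg.zero

theorem RgV.add {v w : VF R} (hv : RgV q v) (hw : RgV q w) : RgV q (v + w) := fun h => by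
  rw [Derivation.add_apply]; exact (hv h).add (hw h)

theorem RgV.neg {v : VF R} (hv : RgV q v) : RgV q (-v) := fun h => by
  rw [Derivation.neg_apply]; exact (hv h).neg

theorem RgV.sub {v w : VF R} (hv : RgV q v) (hw : RgV q w) : RgV q (v - w) := fun h => by
  rw [Derivation.sub_apply]; exact (hv h).sub (hw h)

theorem RgV.smul {x : FractionRing R} {v : VF R} (hx : Rg q x) (hv : RgV q v) :
    RgV q (x • v) := fun h => by
  rw [Derivation.smul_apply, smul_eq_mul]; exact hx.mul (hv h)

theorem RgV.smulC {v : VF R} (c : ℂ) (hv : RgV q v) : RgV q (c • v) := fun h => by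
  rw [Derivation.smul_apply]; exact (hv h).smul c

theorem RgV.sum {ι : Type*} (s : Finset ι) {f : ι → VF R} (h : ∀ i ∈ s, RgV q (f i)) :
    RgV q (∑ i ∈ s, f i) :=
  Finset.sum_induction f (RgV q) (fun _ _ => RgV.add) RgV.zero h

/-- a regular field sends regular functions to regular functions -/
theorem RgV.rg {v : VF R} (hv : RgV q v) {x : FractionRing R} (hx : Rg q x) : Rg q (v x) := by
  obtain ⟨a, s, h1, h2⟩ := hx
  have h3 := vf_of_mul v h2
  refine Rg.of_mul h1 ?_
  rw [h3]
  exact (hv a).sub (Rg.mul ⟨a, s, h1, h2⟩ (hv s))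

theorem RgV.lie {v w : VF R} (hv : RgV q v) (hw : RgV q w) : RgV q ⁅v, w⁆ := fun h => by
  rw [Derivation.commutator_apply]
  exact (hv.rg (hw h)).sub (hw.rg (hv h))

theorem Glob.rgV {v : VF R} (hv : Glob v) : RgV q v := fun h => by
  obtain ⟨a, ha⟩ := hv h
  rw [ha]
  exact Rg.iK a

/-! ### values of fields -/

theorem ValV.rgV {v : VF R} {t : R →ₗ[ℂ] ℂ} (h : ValV q v t) : RgV q v := fun a => (h a).rg

theorem ValV.unique {v : VF R} {t t' : R →ₗ[ℂ] ℂ} (h : ValV q v t) (h' : ValV q v t') : t = t' :=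
  LinearMap.ext fun a => (h a).unique (h' a)

theorem RgV.val {v : VF R} (h : RgV q v) : ∃ t, ValV q v t := by
  have h1 : ∀ a, ∃ c, Val q (v (iK a)) c := fun a => (h a).val
  choose t ht using h1
  refine ⟨⟨⟨t, fun a b => ?_⟩, fun c a => ?_⟩, fun a => ht a⟩
  · refine (ht (a + b)).unique ?_
    rw [iK_add, map_add]
    exact (ht a).add (ht b)
  · refine (ht (c • a)).unique ?_
    rw [iK_smul, Derivation.map_smul, RingHom.id_apply, smul_eq_mul]
    exact (ht a).smul c

theorem rgV_iff_val {v : VF R} : RgV q v ↔ ∃ t, ValV q v t := ⟨RgV.val, fun ⟨_, h⟩ => h.rgV⟩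

theorem ValV.isTangent {v : VF R} {t : R →ₗ[ℂ] ℂ} (h : ValV q v t) : IsTangent q t := by
  intro a b
  refine (h (a * b)).unique ?_
  rw [iK_mul, Derivation.leibniz, smul_eq_mul, smul_eq_mul]
  exact ((Val.iK a).mul (h b)).add ((Val.iK b).mul (h a))

theorem ValV.zero : ValV q (0 : VF R) 0 := fun h => by
  rw [Derivation.zero_apply, LinearMap.zero_apply]; exact Val.zero

theorem ValV.add {v w : VF R} {t t' : R →ₗ[ℂ] ℂ} (hv : ValV q v t) (hw : ValV q w t') :
    ValV q (v + w) (t + t') := fun h => by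
  rw [Derivation.add_apply, LinearMap.add_apply]; exact (hv h).add (hw h)

theorem ValV.neg {v : VF R} {t : R →ₗ[ℂ] ℂ} (hv : ValV q v t) : ValV q (-v) (-t) := fun h => by
  rw [Derivation.neg_apply, LinearMap.neg_apply]; exact (hv h).neg

theorem ValV.sub {v w : VF R} {t t' : R →ₗ[ℂ] ℂ} (hv : ValV q v t) (hw : ValV q w t') :
    ValV q (v - w) (t - t') := fun h => by
  rw [Derivation.sub_apply, LinearMap.sub_apply]; exact (hv h).sub (hw h)

theorem ValV.smul {x : FractionRing R} {c : ℂ} {v : VF R} {t : R →ₗ[ℂ] ℂ} (hx : Val q x c)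
    (hv : ValV q v t) : ValV q (x • v) (c • t) := fun h => by
  rw [Derivation.smul_apply, LinearMap.smul_apply, smul_eq_mul, smul_eq_mul]
  exact hx.mul (hv h)

theorem ValV.smulC {v : VF R} {t : R →ₗ[ℂ] ℂ} (c : ℂ) (hv : ValV q v t) :
    ValV q (c • v) (c • t) := fun h => by
  rw [Derivation.smul_apply, LinearMap.smul_apply, smul_eq_mul]
  exact (hv h).smul c

theorem ValV.sum {ι : Type*} (s : Finset ι) {f : ι → VF R} {t : ι → R →ₗ[ℂ] ℂ}
    (h : ∀ i ∈ s, ValV q (f i) (t i)) : ValV q (∑ i ∈ s, f i) (∑ i ∈ s, t i) := by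
  classical
  induction s using Finset.induction_on with
  | empty => rw [Finset.sum_empty, Finset.sum_empty]; exact ValV.zero
  | insert a s ha ih =>
    rw [Finset.sum_insert ha, Finset.sum_insert ha]
    exact (h a (Finset.mem_insert_self _ _)).add
      (ih fun i hi => h i (Finset.mem_insert_of_mem hi))

/-- the value at `x` of `v f`, `f` regular -/
theorem ValV.val {v : VF R} {t : R →ₗ[ℂ] ℂ} (hv : ValV q v t) {x : FractionRing R} {a s : R}
    {c : ℂ} (hs : q s ≠ 0) (h : iK s * x = iK a) (hc : Val q x c) :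
    Val q (v x) ((t a - c * t s) / q s) := by
  have h3 := vf_of_mul v h
  have h4 : Val q (iK s * v x) (t a - c * t s) := by
    rw [h3]
    exact (hv a).sub (hc.mul (hv s))
  have h5 := ((Val.iK s).inv hs).mul h4
  rw [← mul_assoc, inv_mul_cancel₀ (iK_ne_zero (ne_zero_of_q hs)), one_mul] at h5
  rw [div_eq_inv_mul]
  exact h5

/-! ### regular modulo a span -/

section rm
variable {W : Set (VF R)}

theorem RgV.rm {v : VF R} (hv : RgV q v) : RM q W v :=
  ⟨0, Submodule.zero_mem _, by rwa [sub_zero]⟩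

theorem RM.of_mem {v : VF R} (hv : v ∈ Submodule.span (FractionRing R) W) : RM q W v :=
  ⟨v, hv, by rw [sub_self]; exact RgV.zero⟩

theorem RM.zero : RM q W (0 : VF R) := RgV.zero.rm

theorem RM.add {v w : VF R} (hv : RM q W v) (hw : RM q W w) : RM q W (v + w) := by
  obtain ⟨u, hu, h1⟩ := hv
  obtain ⟨u', hu', h2⟩ := hw
  exact ⟨u + u', Submodule.add_mem _ hu hu', by rw [add_sub_add_comm]; exact h1.add h2⟩

theorem RM.neg {v : VF R} (hv : RM q W v) : RM q W (-v) := by
  obtain ⟨u, hu, h1⟩ := hv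
  exact ⟨-u, Submodule.neg_mem _ hu, by rw [neg_sub_neg, ← neg_sub]; exact h1.neg⟩

theorem RM.sub {v w : VF R} (hv : RM q W v) (hw : RM q W w) : RM q W (v - w) := by
  rw [sub_eq_add_neg]
  exact hv.add hw.neg

theorem RM.smul {x : FractionRing R} {v : VF R} (hx : Rg q x) (hv : RM q W v) :
    RM q W (x • v) := by
  obtain ⟨u, hu, h1⟩ := hv
  have h2 : x • v - x • u = x • (v - u) := by
    refine Derivation.ext fun y => ?_
    simp only [Derivation.sub_apply, Derivation.smul_apply, smul_eq_mul, mul_sub]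
  exact ⟨x • u, Submodule.smul_mem _ _ hu, by rw [h2]; exact RgV.smul hx h1⟩

theorem RM.sum {ι : Type*} (s : Finset ι) {f : ι → VF R} (h : ∀ i ∈ s, RM q W (f i)) :
    RM q W (∑ i ∈ s, f i) :=
  Finset.sum_induction f (RM q W) (fun _ _ => RM.add) RM.zero h

theorem RM.mono {W' : Set (VF R)} (h : W ⊆ W') {v : VF R} (hv : RM q W v) : RM q W' v := by
  obtain ⟨u, hu, h1⟩ := hv
  exact ⟨u, Submodule.span_mono h hu, h1⟩

theorem RM.mono_span {W' : Set (VF R)}
    (h : Submodule.span (FractionRing R) W ≤ Submodule.span (FractionRing R) W') {v : VF R}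
    (hv : RM q W v) : RM q W' v := by
  obtain ⟨u, hu, h1⟩ := hv
  exact ⟨u, h hu, h1⟩

theorem RM.congr {v w : VF R} (h : v - w ∈ Submodule.span (FractionRing R) W) :
    RM q W v ↔ RM q W w := by
  constructor
  · intro hv
    have h1 := hv.sub (RM.of_mem (q := q) h)
    rwa [sub_sub_cancel] at h1
  · intro hw
    have h1 := (RM.of_mem (q := q) h).add hw
    rwa [sub_add_cancel] at h1

theorem rm_empty {v : VF R} : RM q ∅ v ↔ RgV q v := by
  constructor
  · rintro ⟨u, hu, h1⟩
    rw [Submodule.span_empty, Submodule.mem_bot] at hu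
    rwa [hu, sub_zero] at h1
  · exact RgV.rm

theorem rm_range {ι : Type*} [Fintype ι] {w : ι → VF R} {v : VF R} :
    RM q (Set.range w) v ↔ ∃ g : ι → FractionRing R, RgV q (v - ∑ i, g i • w i) := by
  constructor
  · rintro ⟨u, hu, h1⟩
    obtain ⟨g, rfl⟩ := (Submodule.mem_span_range_iff_exists_fun _).1 hu
    exact ⟨g, h1⟩
  · rintro ⟨g, h1⟩
    exact ⟨_, (Submodule.mem_span_range_iff_exists_fun _).2 ⟨g, rfl⟩, h1⟩

theorem rm_insert {w v : VF R} :
    RM q (insert w W) v ↔ ∃ g : FractionRing R, RM q W (v - g • w) := by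
  constructor
  · rintro ⟨u, hu, h1⟩
    obtain ⟨g, z, hz, rfl⟩ := Submodule.mem_span_insert.1 hu
    exact ⟨g, z, hz, by rwa [sub_sub]⟩
  · rintro ⟨g, z, hz, h1⟩
    exact ⟨g • w + z, Submodule.mem_span_insert.2 ⟨g, z, hz, rfl⟩, by rwa [← sub_sub]⟩

end rm

/-! ### global fields -/

theorem Glob.zero : Glob (0 : VF R) := fun h => ⟨0, by rw [Derivation.zero_apply, iK_zero]⟩

theorem Glob.add {v w : VF R} (hv : Glob v) (hw : Glob w) : Glob (v + w) := fun h => by
  obtain ⟨a, ha⟩ := hv h
  obtain ⟨b, hb⟩ := hw h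
  exact ⟨a + b, by rw [Derivation.add_apply, ha, hb, iK_add]⟩

theorem Glob.smulC {v : VF R} (c : ℂ) (hv : Glob v) : Glob (c • v) := fun h => by
  obtain ⟨a, ha⟩ := hv h
  exact ⟨c • a, by rw [Derivation.smul_apply, ha, iK_smul]⟩

theorem Glob.smulR {v : VF R} (b : R) (hv : Glob v) : Glob (iK b • v) := fun h => by
  obtain ⟨a, ha⟩ := hv h
  exact ⟨b * a, by rw [Derivation.smul_apply, ha, iK_mul, smul_eq_mul]⟩

theorem Glob.neg {v : VF R} (hv : Glob v) : Glob (-v) := fun h => by
  obtain ⟨a, ha⟩ := hv h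
  exact ⟨-a, by rw [Derivation.neg_apply, ha, iK_neg]⟩

theorem Glob.sub {v w : VF R} (hv : Glob v) (hw : Glob w) : Glob (v - w) := by
  rw [sub_eq_add_neg]
  exact hv.add hw.neg

theorem Glob.lie {v w : VF R} (hv : Glob v) (hw : Glob w) : Glob ⁅v, w⁆ := fun h => by
  obtain ⟨a, ha⟩ := hv h
  obtain ⟨b, hb⟩ := hw h
  obtain ⟨a', ha'⟩ := hv b
  obtain ⟨b', hb'⟩ := hw a
  exact ⟨a' - b', by rw [Derivation.commutator_apply, ha, hb, ha', hb', iK_sub]⟩

/-- the bracket with a multiple -/
theorem lie_smul_vf (e w : VF R) (g : FractionRing R) : ⁅e, g • w⁆ = e g • w + g • ⁅e, w⁆ := by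
  refine Derivation.ext fun x => ?_
  rw [Derivation.commutator_apply, Derivation.add_apply, Derivation.smul_apply,
    Derivation.smul_apply, Derivation.smul_apply, Derivation.smul_apply,
    Derivation.commutator_apply]
  simp only [smul_eq_mul]
  rw [Derivation.leibniz, smul_eq_mul, smul_eq_mul]
  ring

theorem smul_lie_vf (e w : VF R) (g : FractionRing R) : ⁅g • w, e⁆ = g • ⁅w, e⁆ - e g • w := by
  rw [← lie_skew, lie_smul_vf, ← lie_skew w e, smul_neg]
  abel

/-- a numerator and a denominator -/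
theorem exists_frac (x : FractionRing R) : ∃ a s : R, s ≠ 0 ∧ iK s * x = iK a := by
  obtain ⟨a, s, hs, rfl⟩ := IsFractionRing.div_surjective (A := R) x
  refine ⟨a, s, nonZeroDivisors.ne_zero hs, ?_⟩
  have hs0 : (algebraMap R (FractionRing R) s) ≠ 0 := iK_ne_zero (nonZeroDivisors.ne_zero hs)
  show algebraMap R (FractionRing R) s * _ = algebraMap R (FractionRing R) a
  field_simp

/-- the underlying function of `toVF` -/
noncomputable def toF (D : Derivation ℂ R R) (x : FractionRing R) : FractionRing R :=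
  (iK (D (exists_frac x).choose) - x * iK (D (exists_frac x).choose_spec.choose)) /
    iK (exists_frac x).choose_spec.choose

theorem toF_eq (D : Derivation ℂ R R) {x : FractionRing R} {a s : R} (hs : s ≠ 0)
    (h : iK s * x = iK a) : iK s * toF D x = iK (D a) - x * iK (D s) := by
  have h0 := (exists_frac x).choose_spec.choose_spec
  unfold toF
  set a0 := (exists_frac x).choose
  set s0 := (exists_frac x).choose_spec.choose
  obtain ⟨hs0, h0⟩ := h0
  have h1 : s * a0 = s0 * a := by
    apply iK_inj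
    rw [iK_mul, iK_mul, ← h, ← h0]
    ring
  have h2 := congrArg D h1
  rw [Derivation.leibniz, Derivation.leibniz, smul_eq_mul, smul_eq_mul, smul_eq_mul,
    smul_eq_mul] at h2
  have h3 := congrArg iK h2
  rw [iK_add, iK_add, iK_mul, iK_mul, iK_mul, iK_mul] at h3
  have k0 := iK_ne_zero hs0
  have h4 : iK s0 * (iK s * ((iK (D a0) - x * iK (D s0)) / iK s0)) =
      iK s0 * (iK (D a) - x * iK (D s)) := by
    rw [mul_div_assoc', mul_div_cancel₀ _ k0]
    linear_combination h3 - iK (D s0) * h + iK (D s) * h0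
  exact mul_left_cancel₀ k0 h4

/-- the field of `Spec R` as a rational field -/
noncomputable def toVF (D : Derivation ℂ R R) : VF R :=
  Derivation.mk'
    { toFun := toF D
      map_add' := by
        intro x y
        obtain ⟨a, s, hs, h⟩ := exists_frac x
        obtain ⟨b, t, ht, k⟩ := exists_frac y
        have e : iK (s * t) * (x + y) = iK (t * a + s * b) := by
          rw [iK_mul, iK_add, iK_mul, iK_mul, ← h, ← k]
          ring
        have h1 := toF_eq D (mul_ne_zero hs ht) e
        have h2 := toF_eq D hs h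
        have h3 := toF_eq D ht k
        rw [map_add, Derivation.leibniz, Derivation.leibniz, Derivation.leibniz] at h1
        simp only [smul_eq_mul, iK_add, iK_mul] at h1
        have k1 := mul_ne_zero (iK_ne_zero hs) (iK_ne_zero ht)
        apply mul_left_cancel₀ k1
        linear_combination h1 - iK t * h2 - iK s * h3 - iK (D t) * h - iK (D s) * k
      map_smul' := by
        intro c x
        obtain ⟨a, s, hs, h⟩ := exists_frac x
        have e : iK s * (c • x) = iK (c • a) := by
          rw [iK_smul, ← h, mul_smul_comm]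
        have h1 := toF_eq D hs e
        have h2 := toF_eq D hs h
        apply mul_left_cancel₀ (iK_ne_zero hs)
        rw [h1, RingHom.id_apply, mul_smul_comm, h2, Derivation.map_smul, iK_smul, smul_sub,
          smul_mul_assoc] }
    (by
      intro x y
      show toF D (x * y) = x • toF D y + y • toF D x
      obtain ⟨a, s, hs, h⟩ := exists_frac x
      obtain ⟨b, t, ht, k⟩ := exists_frac y
      have e : iK (s * t) * (x * y) = iK (a * b) := by
        rw [iK_mul, iK_mul, ← h, ← k]
        ring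
      have h1 := toF_eq D (mul_ne_zero hs ht) e
      have h2 := toF_eq D hs h
      have h3 := toF_eq D ht k
      rw [Derivation.leibniz, Derivation.leibniz] at h1
      simp only [smul_eq_mul, iK_add, iK_mul] at h1 ⊢
      have k1 := mul_ne_zero (iK_ne_zero hs) (iK_ne_zero ht)
      apply mul_left_cancel₀ k1
      linear_combination h1 - iK t * y * h2 - iK s * x * h3 - iK (D b) * h - iK (D a) * k)

theorem toVF_iK (D : Derivation ℂ R R) (h : R) : toVF D (iK h) = iK (D h) := by
  have e : iK (1 : R) * iK h = iK h := by rw [iK_one, one_mul]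
  have h1 : iK (1 : R) * toF D (iK h) = _ := toF_eq D one_ne_zero e
  rw [iK_one, one_mul, Derivation.map_one_eq_zero, iK_zero, mul_zero, sub_zero] at h1
  exact h1

theorem toVF_glob (D : Derivation ℂ R R) : Glob (toVF D) := fun h => ⟨D h, toVF_iK D h⟩

/-- a global field comes from a derivation of `R` -/
theorem Glob.exists_der {v : VF R} (hv : Glob v) : ∃ D : Derivation ℂ R R, toVF D = v := by
  choose D hD using hv
  refine ⟨Derivation.mk' ⟨⟨D, fun a b => ?_⟩, fun c a => ?_⟩ fun a b => ?_, vf_ext fun a => ?_⟩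
  · apply iK_inj
    show iK (D (a + b)) = iK (D a + D b)
    rw [← hD, iK_add, map_add, iK_add, ← hD, ← hD]
  · apply iK_inj
    show iK (D (c • a)) = iK (c • D a)
    rw [← hD, iK_smul, Derivation.map_smul, iK_smul, ← hD]
  · apply iK_inj
    show iK (D (a * b)) = iK (a • D b + b • D a)
    rw [← hD, iK_mul, Derivation.leibniz, hD, hD, smul_eq_mul, smul_eq_mul, smul_eq_mul,
      smul_eq_mul, iK_add, iK_mul, iK_mul]
  · rw [toVF_iK, hD]
    rfl

theorem glob_iff {v : VF R} : Glob v ↔ ∃ D : Derivation ℂ R R, toVF D = v := by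
  constructor
  · exact Glob.exists_der
  · rintro ⟨D, rfl⟩
    exact toVF_glob D

theorem toVF_lie (D D' : Derivation ℂ R R) : toVF ⁅D, D'⁆ = ⁅toVF D, toVF D'⁆ := by
  refine vf_ext fun a => ?_
  rw [Derivation.commutator_apply, toVF_iK, toVF_iK, toVF_iK, toVF_iK, toVF_iK,
    Derivation.commutator_apply, iK_sub]

theorem toVF_add (D D' : Derivation ℂ R R) : toVF (D + D') = toVF D + toVF D' := by
  refine vf_ext fun a => ?_
  rw [Derivation.add_apply, toVF_iK, toVF_iK, toVF_iK, Derivation.add_apply, iK_add]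

theorem toVF_inj {D D' : Derivation ℂ R R} (h : toVF D = toVF D') : D = D' := by
  refine Derivation.ext fun a => iK_inj ?_
  show iK (D a) = iK (D' a)
  rw [← toVF_iK, ← toVF_iK, h]

end Vale.Agent.P280.N
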